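import Vale.Agent.P157.Low.CascadeClass

/-!
P168: the leaves of a regular tree and the levels at which they meet.
-/

namespace Vale.Agent.P168

open Vale.Agent.P157.Low

variable {r M : ℕ}

/-- The level where two leaves part. -/
def parting (u u' : Fin (r + 1) → Fin M) : Fin (r + 1) :=
  if h : (Finset.univ.filter fun q => u q ≠ u' q).Nonempty then
    (Finset.univ.filter fun q => u q ≠ u' q).min' h
  else Fin.last r

lemma le_parting {u u' : Fin (r + 1) → Fin M} {j : Fin (r + 1)} :
    j ≤ parting u u' ↔ ∀ q, q < j → u q = u' q := by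
  unfold parting
  split_ifs with h
  · rw [Finset.le_min'_iff]
    exact ⟨fun hj q hq => by
      by_contra hne
      exact absurd (hj q (by simp [hne])) (not_le.2 hq), fun hj q hq => not_lt.1 fun hlt =>
        (Finset.mem_filter.1 hq).2 (hj q hlt)⟩
  · refine ⟨fun _ q _ => ?_, fun _ => Fin.le_last j⟩
    by_contra hne
    exact h ⟨q, by simp [hne]⟩

lemma parting_symm (u u' : Fin (r + 1) → Fin M) : parting u u' = parting u' u :=
  le_antisymm (le_parting.2 fun q hq => (le_parting.1 le_rfl q hq).symm)
    (le_parting.2 fun q hq => (le_parting.1 le_rfl q hq).symm)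

lemma parting_eq {u u' : Fin (r + 1) → Fin M} {j : Fin (r + 1)} (h : ∀ q, q < j → u q = u' q)
    (hj : u j ≠ u' j) : parting u u' = j :=
  le_antisymm (not_lt.1 fun hlt => hj (le_parting.1 le_rfl j hlt)) (le_parting.2 h)

/-- The array of levels of listed leaves. -/
def leafArr {N : ℕ} (e : Fin N → Fin (r + 1) → Fin M) : LMat r N := fun a b => parting (e a) (e b)

lemma good_leafArr {N : ℕ} (e : Fin N → Fin (r + 1) → Fin M) : Good (leafArr e) := by
  refine ⟨fun a b => parting_symm _ _, fun a => le_antisymm (Fin.le_last _) (le_parting.2 fun _ _ => rfl),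
    fun a b c => le_parting.2 fun q hq => ?_⟩
  exact (le_parting.1 (min_le_left _ _) q hq).trans (le_parting.1 (min_le_right _ _) q hq)

end Vale.Agent.P168
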