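import Vale.Agent.P168.Nest

/-!
P168: sampling from a finite law with a uniform variable, and the coordinates seen at the leaves of a
path tower.
-/

namespace Vale.Agent.P168

open MeasureTheory Vale.Agent.P157.Low Vale.Agent.P166F.Low.Cascade

/-- A measurable choice with a prescribed finite law. -/
lemma exists_pick {α : Type} [Fintype α] [Nonempty α] [MeasurableSpace α] [DiscreteMeasurableSpace α]
    (p : α → ℝ) (h0 : ∀ a, 0 ≤ p a) (h1 : ∑ a, p a = 1) :
    ∃ f : UI → α, Measurable f ∧ ∀ g : α → ℝ, ∫ u, g (f u) = ∑ a, p a * g a := by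
  set μ : Measure α := ∑ a, ENNReal.ofReal (p a) • Measure.dirac a
  have : IsProbabilityMeasure μ := ⟨by
    simp only [μ, Measure.coe_finsetSum, Finset.sum_apply, Measure.smul_apply, measure_univ,
      smul_eq_mul, mul_one, ← ENNReal.ofReal_sum_of_nonneg fun a _ => h0 a, h1, ENNReal.ofReal_one]⟩
  obtain ⟨f, hf, hmap⟩ := μ.exists_measurable_map_eq
  refine ⟨f, hf, fun g => ?_⟩
  rw [← integral_map hf.aemeasurable (measurable_of_finite g).aestronglyMeasurable, hmap,
    integral_finsetSum_measure fun a _ => (integrable_dirac (by simp)).smul_measure ENNReal.ofReal_ne_top]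
  exact Finset.sum_congr rfl fun a _ => by
    rw [integral_smul_measure, integral_dirac, ENNReal.toReal_ofReal (h0 a), smul_eq_mul]

/-- An integral over independent coordinates, with one coordinate drawn last. -/
lemma integral_redraw {ι Ω : Type} [Fintype ι] [DecidableEq ι] [MeasurableSpace Ω] (μ : Measure Ω)
    [IsProbabilityMeasure μ] (c : ι) {F : (ι → Ω) → ℝ} (hF : Measurable F) {B : ℝ}
    (hB : ∀ ω, |F ω| ≤ B) :
    ∫ ω, F ω ∂Measure.pi (fun _ : ι => μ) =
      ∫ ω, ∫ ξ, F (Function.update ω c ξ) ∂μ ∂Measure.pi fun _ : ι => μ := by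
  have hp := measurePreserving_update μ c (ι := ι)
  conv_lhs => rw [← hp.map_eq]
  rw [integral_map hp.measurable.aemeasurable hF.aestronglyMeasurable, integral_prod]
  exact Integrable.mono' (integrable_const B) (hF.comp hp.measurable).aestronglyMeasurable
    (Filter.Eventually.of_forall fun z => (Real.norm_eq_abs _).trans_le (hB _))

/-- At the leaves, each coordinate is the noise of the ball of its level. -/
lemma pos_pathTower {r n : ℕ} {Ω : Type} [MeasurableSpace Ω] (C : Casc r) (ν : Measure Ω)
    [IsProbabilityMeasure ν] (x0 : Ω) (A : LMat r n) (ω : Fin (r + 1) × Fin n → Ω) (a : Fin n) :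
    (pathTower C ν x0).pos A ω (r + 1) a = fun p => ω (p, rep p A a) := by
  have key : ∀ j, j ≤ r + 1 → ∀ p, (pathTower C ν x0).pos A ω j a p =
      if (p : ℕ) < j then ω (p, rep p A a) else x0 := by
    intro j
    induction j with
    | zero => intro _ p; simp [Tower.pos, pathTower]
    | succ j ih =>
      intro hj p
      show Function.update ((pathTower C ν x0).pos A ω j a) (lvl r j)
        (ω (lvl r j, rep (lvl r j) A a)) p = _
      have hl : (lvl r j : ℕ) = j := lvl_val (by omega)
      rcases eq_or_ne p (lvl r j) with rfl | hne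
      · rw [Function.update_self, if_pos (by omega)]
      · have : (p : ℕ) ≠ j := fun h => hne (Fin.ext (by omega))
        rw [Function.update_of_ne hne, ih (by omega) p]
        exact if_congr (by omega) rfl rfl
  funext p
  rw [key (r + 1) le_rfl p, if_pos p.isLt]

/-- Exchanging the two indices of independent coordinates. -/
lemma measurePreserving_transpose (ι κ : Type) [Fintype ι] [Fintype κ] {Ω : Type} [MeasurableSpace Ω]
    (μ : Measure Ω) [IsProbabilityMeasure μ] :
    MeasurePreserving (fun (ω : ι → κ → Ω) (k : κ) (i : ι) => ω i k)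
      (Measure.pi fun _ : ι => Measure.pi fun _ : κ => μ)
      (Measure.pi fun _ : κ => Measure.pi fun _ : ι => μ) := by
  classical
  have hm : Measurable fun (ω : ι → κ → Ω) (k : κ) (i : ι) => ω i k :=
    measurable_pi_lambda _ fun k => measurable_pi_lambda _ fun i =>
      (measurable_pi_apply k).comp (measurable_pi_apply i)
  refine ⟨hm, ?_⟩
  symm
  refine Measure.pi_eq_generateFrom (C := fun _ => Set.pi Set.univ '' Set.pi Set.univ
    fun _ : ι => {s : Set Ω | MeasurableSet s}) (fun _ => generateFrom_pi) (fun _ => isPiSystem_pi)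
    (fun _ => ⟨fun _ => Set.univ, fun _ => ⟨fun _ => Set.univ, fun _ _ => MeasurableSet.univ,
      Set.pi_univ _⟩, fun _ => measure_lt_top _ _, Set.iUnion_const _⟩) fun s hs => ?_
  choose t ht hts using hs
  obtain rfl : s = fun k => Set.pi Set.univ (t k) := funext fun k => (hts k).symm
  have htm : ∀ k i, MeasurableSet (t k i) := fun k i => ht k i (Set.mem_univ i)
  rw [Measure.map_apply hm (MeasurableSet.univ_pi fun k => MeasurableSet.univ_pi (htm k))]
  have e : (fun (ω : ι → κ → Ω) (k : κ) (i : ι) => ω i k) ⁻¹'
      Set.pi Set.univ (fun k => Set.pi Set.univ (t k)) =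
      Set.pi Set.univ fun i => Set.pi Set.univ fun k => t k i := by
    ext ω
    simp only [Set.mem_preimage, Set.mem_univ_pi]
    exact forall_comm
  rw [e, Measure.pi_pi]
  simp only [Measure.pi_pi]
  exact Finset.prod_comm

end Vale.Agent.P168
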