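import Vale.Agent.P168.MP.Tree.Kernel
import Vale.Agent.P168.MP.Tree.Sample
import Vale.Agent.P168.MP.Tree.Branch

/-!
P168: one site of a cascade is imitated by a regular tree with many children at every node.
-/

namespace Vale.Agent.P168

open MeasureTheory Finset Vale.Agent.P157.Low Vale.Agent.P166F.Low.Cascade

variable {r n M : ℕ}

/-- The leaf of a variable number `v` under the children drawn along the levels. -/
def leafOf (c : UI → Fin M) (y : Fin (r + 1) → UI) (v : Fin M) (q : Fin (r + 1)) : Fin M :=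
  if h : (q : ℕ) < r then c (y ⟨(q : ℕ) + 1, by omega⟩) else v

/-- The message of the tree: the mean spin of the leaves under the drawn node. -/
noncomputable def treeMsg (S : UI → (Fin (r + 1) → Fin M) → Bool) (c : UI → Fin M)
    (y : Fin (r + 1) → UI) : ℝ :=
  (∑ a, spin (S (y 0) (leafOf c y a))) / M

lemma msgWeight_treeMsg (hM : 0 < M) (S : UI → (Fin (r + 1) → Fin M) → Bool) (c : UI → Fin M)
    (y : Fin (r + 1) → UI) (s : Bool) :
    msgWeight (treeMsg S c y) s = (∑ a, if S (y 0) (leafOf c y a) = s then (1 : ℝ) else 0) / M := by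
  have e : ∀ a, (if S (y 0) (leafOf c y a) = s then (1 : ℝ) else 0) =
      (1 + spin (S (y 0) (leafOf c y a)) * spin s) / 2 := fun a => by
    cases S (y 0) (leafOf c y a) <;> cases s <;> simp [spin]
  have : (M : ℝ) ≠ 0 := Nat.cast_ne_zero.2 hM.ne'
  simp only [e, msgWeight, treeMsg, ← sum_div, sum_add_distrib, sum_const, card_univ, Fintype.card_fin,
    nsmul_eq_mul, mul_one, ← sum_mul]
  field_simp

lemma abs_treeMsg_le (hM : 0 < M) (S : UI → (Fin (r + 1) → Fin M) → Bool) (c : UI → Fin M)
    (y : Fin (r + 1) → UI) : |treeMsg S c y| ≤ 1 := by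
  rw [treeMsg, abs_div, Nat.abs_cast, div_le_one (Nat.cast_pos.2 hM)]
  refine (abs_sum_le_sum_abs _ _).trans ((sum_le_sum fun a _ => ?_).trans (by simp) (b := ∑ _a : Fin M, (1 : ℝ)))
  cases S (y 0) (leafOf c y a) <;> simp [spin]

lemma measurable_treeMsg {S : UI → (Fin (r + 1) → Fin M) → Bool} {c : UI → Fin M} (hS : Measurable S)
    (hc : Measurable c) : Measurable (treeMsg S c) := by
  have h1 : Measurable fun y : Fin (r + 1) → UI => (S (y 0), fun q => c (y q)) :=
    (hS.comp (measurable_pi_apply 0)).prodMk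
      (measurable_pi_lambda _ fun q => hc.comp (measurable_pi_apply q))
  have e : treeMsg S c = (fun z : ((Fin (r + 1) → Fin M) → Bool) × (Fin (r + 1) → Fin M) =>
      (∑ a, spin (z.1 fun q => if h : (q : ℕ) < r then z.2 ⟨(q : ℕ) + 1, by omega⟩ else a)) / M) ∘
      fun y => (S (y 0), fun q => c (y q)) := rfl
  rw [e]
  exact (measurable_of_finite _).comp h1

lemma sum_two_slots {l l' : Fin n} (h : l ≠ l') :
    (∑ v : Fin n → Fin M, if v l = v l' then (1 : ℝ) else 0) * M = (M : ℝ) ^ n := by
  have h' : l' ≠ l := h.symm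
  rw [← (Equiv.funSplitAt l (Fin M)).symm.sum_comp, Fintype.sum_prod_type, sum_comm]
  simp only [Equiv.funSplitAt, Equiv.piSplitAt_symm_apply, dite_true, h', dite_false,
    eq_rec_constant, sum_ite_eq', mem_univ, if_true, sum_const, card_univ, Fintype.card_fun,
    Fintype.card_subtype_compl, Fintype.card_subtype_eq, Fintype.card_fin, nsmul_eq_mul, mul_one]
  rw [Nat.cast_pow, ← pow_succ, Nat.sub_add_cancel (Fin.pos l)]

variable {C : Casc r}

lemma SiteKer.law_le_one (κ : SiteKer C) {A : LMat r n} (hA : Good A) (τ : Fin n → Bool) :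
    κ.law n A τ ≤ 1 :=
  κ.total n A hA ▸ single_le_sum (fun σ _ => κ.nonneg n A σ hA) (mem_univ τ)

/-- One site: the tree moments are within `n² / M` of the kernel. -/
theorem abs_site_sub_le (κ : SiteKer C) (hM : 0 < M) {N : ℕ}
    (e : (Fin (r + 1) → Fin M) ≃ Fin N) {S : UI → (Fin (r + 1) → Fin M) → Bool} {c : UI → Fin M}
    (hS : Measurable S) (hc : Measurable c)
    (hSlaw : ∀ g : ((Fin (r + 1) → Fin M) → Bool) → ℝ,
      ∫ u, g (S u) = ∑ σ, κ.law N (leafArr fun a => e.symm a) σ * g (σ ∘ e))
    (hclaw : ∀ g : Fin M → ℝ, ∫ u, g (c u) = ∑ a, 1 / (M : ℝ) * g a)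
    {A : LMat r n} (hA : Good A) (τ : Fin n → Bool) :
    |∫ ω, ∏ l, msgWeight (treeMsg S c fun p => ω (p, rep p A l)) (τ l)
        ∂(Measure.pi fun _ : Fin (r + 1) × Fin n => (volume : Measure UI)) - κ.law n A τ| ≤
      (n : ℝ) ^ 2 / M := by
  classical
  rcases Nat.eq_zero_or_pos n with hn | hn
  · subst hn
    have h := κ.total 0 A hA
    rw [Fintype.sum_subsingleton _ τ] at h
    simp [h]
  set ρ := rep (0 : Fin (r + 1)) A ⟨0, hn⟩
  have hρ : ∀ l, rep (0 : Fin (r + 1)) A l = ρ := fun l => (hA.rep_eq_iff 0 _ _).2 (Fin.zero_le _)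
  set P : Measure (Fin (r + 1) × Fin n → UI) := Measure.pi fun _ => volume
  set φ : (Fin (r + 1) × Fin n → UI) → (Fin n → Fin M) → Fin n → Fin (r + 1) → Fin M :=
    fun ω v l => leafOf c (fun p => ω (p, rep p A l)) (v l) with hφ
  set bad : (Fin n → Fin (r + 1) → Fin M) → ℝ :=
    fun ψ => ∑ l, ∑ l', if l ≠ l' ∧ ψ l (A l l') = ψ l' (A l l') then (1 : ℝ) else 0
  set H : (Fin n → Fin (r + 1) → Fin M) → ℝ := fun ψ =>
    ∑ σ, κ.law N (leafArr fun a => e.symm a) σ * if (fun l => σ (e (ψ l))) = τ then 1 else 0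
  set B := leafArr fun a => e.symm a
  have hB : Good B := good_leafArr _
  -- below the level of two replicas their leaves agree
  have agree : ∀ ω v l l' q, q < A l l' → φ ω v l q = φ ω v l' q := by
    intro ω v l l' q hq
    have hq' : (q : ℕ) < r := lt_of_lt_of_le (Fin.lt_def.1 hq) (Fin.is_le _)
    simp only [hφ, leafOf, dif_pos hq']
    rw [(hA.rep_eq_iff ⟨(q : ℕ) + 1, by omega⟩ l l').2 (Fin.le_def.2 (Fin.lt_def.1 hq))]
  have hHb : ∀ ω v, |H (φ ω v) - κ.law n A τ| ≤ bad (φ ω v) := by
    intro ω v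
    have hnn : ∀ l l', (0 : ℝ) ≤
        if l ≠ l' ∧ φ ω v l (A l l') = φ ω v l' (A l l') then (1 : ℝ) else 0 := fun l l' => by
      split_ifs <;> norm_num
    by_cases hbad : ∃ l l', l ≠ l' ∧ φ ω v l (A l l') = φ ω v l' (A l l')
    · obtain ⟨l, l', hl⟩ := hbad
      have h1 : 1 ≤ bad (φ ω v) := le_trans (by rw [if_pos hl])
        ((single_le_sum (fun x _ => hnn l x) (mem_univ l')).trans
          (single_le_sum (fun x _ => sum_nonneg fun y _ => hnn x y) (mem_univ l)))
      refine le_trans (abs_le.2 ⟨?_, ?_⟩) h1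
      · have : 0 ≤ H (φ ω v) := sum_nonneg fun σ _ =>
          mul_nonneg (κ.nonneg _ _ _ hB) (by split_ifs <;> norm_num)
        linarith [κ.law_le_one hA τ]
      · have : H (φ ω v) ≤ 1 := (sum_le_sum fun σ _ =>
          mul_le_of_le_one_right (κ.nonneg _ _ _ hB) (by split_ifs <;> norm_num)).trans_eq
          (κ.total _ _ hB)
        linarith [κ.nonneg n A τ hA]
    · push Not at hbad
      have hinj : Function.Injective fun l => e (φ ω v l) := fun l l' h => by
        by_contra hne
        exact hbad l l' hne (by rw [e.injective h])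
      have hsub : sub B (fun l => e (φ ω v l)) = A := by
        funext l l'
        simp only [sub, B, leafArr, Equiv.symm_apply_apply]
        rcases eq_or_ne l l' with rfl | hne
        · rw [hA.diag]; exact le_antisymm (Fin.le_last _) (le_parting.2 fun _ _ => rfl)
        · exact parting_eq (agree ω v l l') (hbad l l' hne)
      have hc' := κ.cons _ hinj B hB τ
      rw [hsub] at hc'
      have : H (φ ω v) = κ.law n A τ := hc' ▸ sum_congr rfl fun σ _ => by
        rw [mul_ite, mul_one, mul_zero]; rfl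
      rw [this, sub_self, abs_zero]
      exact sum_nonneg fun l _ => sum_nonneg fun l' _ => hnn l l'
  -- finitely many measurable choices
  have hcm : Measurable fun ω : Fin (r + 1) × Fin n → UI => fun p => c (ω p) :=
    measurable_pi_lambda _ fun p => hc.comp (measurable_pi_apply p)
  have mφ : ∀ v, Measurable fun ω => φ ω v := fun v => by
    let G : (Fin (r + 1) × Fin n → Fin M) → Fin n → Fin (r + 1) → Fin M := fun z l q =>
      if h : (q : ℕ) < r then z (⟨(q : ℕ) + 1, by omega⟩, rep ⟨(q : ℕ) + 1, by omega⟩ A l) else v l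
    exact (measurable_of_finite G).comp hcm
  have hfin : ∀ (v : Fin n → Fin M) (G : (Fin n → Fin (r + 1) → Fin M) → ℝ),
      Integrable (fun ω => G (φ ω v)) P := fun v G =>
    Integrable.of_bound ((measurable_of_finite G).comp (mφ v)).aestronglyMeasurable (∑ z, |G z|)
      (Filter.Eventually.of_forall fun ω => (Real.norm_eq_abs _).trans_le
        (single_le_sum (fun z _ => abs_nonneg (G z)) (mem_univ (φ ω v))))
  -- the root draws the spins of all leaves
  have hroot : ∀ v, ∫ ω, (∏ l, if S (ω (0, ρ)) (φ ω v l) = τ l then (1 : ℝ) else 0) ∂P =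
      ∫ ω, H (φ ω v) ∂P := by
    intro v
    have hm : Measurable fun ω => ∏ l, if S (ω (0, ρ)) (φ ω v l) = τ l then (1 : ℝ) else 0 :=
      (measurable_of_finite fun z : ((Fin (r + 1) → Fin M) → Bool) × (Fin n → Fin (r + 1) → Fin M) =>
        ∏ l, if z.1 (z.2 l) = τ l then (1 : ℝ) else 0).comp
        ((hS.comp (measurable_pi_apply (0, ρ))).prodMk (mφ v))
    rw [integral_redraw volume ((0 : Fin (r + 1)), ρ) hm (B := 1) fun ω => by
      rw [abs_prod]; exact prod_le_one (fun _ _ => abs_nonneg _) fun _ _ => by split_ifs <;> simp]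
    refine integral_congr_ae (Filter.Eventually.of_forall fun ω => ?_)
    have hfix : ∀ ξ l, φ (Function.update ω (0, ρ) ξ) v l = φ ω v l := fun ξ l => funext fun q => by
      simp only [hφ, leafOf]
      split_ifs with hq
      · rw [Function.update_of_ne fun h => Nat.succ_ne_zero _ (congrArg (fun p => (p.1 : ℕ)) h)]
      · rfl
    simp only [Function.update_self, hfix]
    rw [hSlaw fun s => ∏ l, if s (φ ω v l) = τ l then (1 : ℝ) else 0]
    refine sum_congr rfl fun σ _ => congrArg _ ?_
    by_cases h : (fun l => σ (e (φ ω v l))) = τ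
    · rw [if_pos h]
      exact prod_eq_one fun l _ => if_pos (congr_fun h l)
    · rw [if_neg h]
      obtain ⟨l, hl⟩ := Function.ne_iff.1 h
      exact prod_eq_zero (mem_univ l) (if_neg hl)
  -- two leaves meet too deep with probability `1 / M`
  have hcoll : ∀ l l', l ≠ l' → ∑ v, ∫ ω,
      (if φ ω v l (A l l') = φ ω v l' (A l l') then (1 : ℝ) else 0) ∂P ≤ (M : ℝ) ^ n / M := by
    intro l l' hne
    have hM' : (0 : ℝ) < M := Nat.cast_pos.2 hM
    rcases Nat.lt_or_ge (A l l' : ℕ) r with hj | hj
    · set q : Fin (r + 1) := ⟨(A l l' : ℕ) + 1, by omega⟩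
      have hrep : rep q A l ≠ rep q A l' := fun h => by
        have := Fin.le_def.1 ((hA.rep_eq_iff q l l').1 h)
        simp only [q] at this
        omega
      have e1 : ∀ v, ∫ ω, (if φ ω v l (A l l') = φ ω v l' (A l l') then (1 : ℝ) else 0) ∂P = 1 / M := by
        intro v
        simp only [hφ, leafOf, dif_pos hj]
        have hm : Measurable fun ω : Fin (r + 1) × Fin n → UI =>
            if c (ω (q, rep q A l)) = c (ω (q, rep q A l')) then (1 : ℝ) else 0 :=
          (measurable_of_finite fun z : Fin M × Fin M => if z.1 = z.2 then (1 : ℝ) else 0).comp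
            ((hc.comp (measurable_pi_apply (q, rep q A l))).prodMk
              (hc.comp (measurable_pi_apply (q, rep q A l'))))
        rw [integral_redraw volume (q, rep q A l) hm (B := 1) fun ω => by split_ifs <;> simp]
        have e2 : ∀ ω : Fin (r + 1) × Fin n → UI, ∫ ξ, (if c (Function.update ω (q, rep q A l) ξ
            (q, rep q A l)) = c (Function.update ω (q, rep q A l) ξ (q, rep q A l')) then (1 : ℝ)
            else 0) = 1 / M := fun ω => by
          simp only [Function.update_self, Function.update_of_ne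
            (show (q, rep q A l') ≠ (q, rep q A l) by simp [hrep.symm])]
          rw [hclaw fun a => if a = c (ω (q, rep q A l')) then (1 : ℝ) else 0]
          simp
        rw [integral_congr_ae (Filter.Eventually.of_forall e2)]
        simp
      simp only [e1, sum_const, card_univ, Fintype.card_fun, Fintype.card_fin, nsmul_eq_mul,
        Nat.cast_pow]
      exact le_of_eq (mul_one_div _ _)
    · simp only [hφ, leafOf, dif_neg (not_lt.2 hj), integral_const, probReal_univ, one_smul]
      rw [le_div_iff₀ hM']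
      exact (sum_two_slots hne).le
  -- assembly
  have key : ∫ ω, ∏ l, msgWeight (treeMsg S c fun p => ω (p, rep p A l)) (τ l) ∂P =
      (∑ v, ∫ ω, H (φ ω v) ∂P) / (M : ℝ) ^ n := by
    have e1 : ∀ ω : Fin (r + 1) × Fin n → UI,
        ∏ l, msgWeight (treeMsg S c fun p => ω (p, rep p A l)) (τ l) =
          (∑ v : Fin n → Fin M, ∏ l, if S (ω (0, ρ)) (φ ω v l) = τ l then (1 : ℝ) else 0) /
            (M : ℝ) ^ n := fun ω => by
      simp only [msgWeight_treeMsg hM, prod_div_distrib, prod_const, card_univ, Fintype.card_fin,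
        hρ, Fintype.prod_sum, hφ]
    simp only [e1, integral_div]
    rw [integral_finsetSum _ fun v _ => ?_, sum_congr rfl fun v _ => hroot v]
    exact Integrable.of_bound ((measurable_of_finite fun z : ((Fin (r + 1) → Fin M) → Bool) ×
        (Fin n → Fin (r + 1) → Fin M) => ∏ l, if z.1 (z.2 l) = τ l then (1 : ℝ) else 0).comp
        ((hS.comp (measurable_pi_apply (0, ρ))).prodMk (mφ v))).aestronglyMeasurable 1
      (Filter.Eventually.of_forall fun ω => by
        show ‖∏ l, if S (ω (0, ρ)) (φ ω v l) = τ l then (1 : ℝ) else 0‖ ≤ 1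
        rw [Real.norm_eq_abs, abs_prod]
        exact prod_le_one (fun _ _ => abs_nonneg _) fun _ _ => by split_ifs <;> simp)
  rw [key]
  have hMn : (0 : ℝ) < (M : ℝ) ^ n := pow_pos (Nat.cast_pos.2 hM) n
  have hconst : κ.law n A τ = (∑ _v : Fin n → Fin M, κ.law n A τ) / (M : ℝ) ^ n := by
    rw [sum_const, card_univ, Fintype.card_fun, Fintype.card_fin, Fintype.card_fin, nsmul_eq_mul,
      Nat.cast_pow, mul_div_cancel_left₀ _ hMn.ne']
  rw [hconst, ← sub_div, ← sum_sub_distrib, abs_div, abs_of_pos hMn, div_le_iff₀ hMn]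
  calc |∑ v, (∫ ω, H (φ ω v) ∂P - κ.law n A τ)|
      ≤ ∑ v, ∫ ω, bad (φ ω v) ∂P := (abs_sum_le_sum_abs _ _).trans (sum_le_sum fun v _ => by
        have hi : ∫ ω, (H (φ ω v) - κ.law n A τ) ∂P = ∫ ω, H (φ ω v) ∂P - κ.law n A τ := by
          rw [integral_sub (hfin v H) (integrable_const _)]; simp
        rw [← hi]
        exact (abs_integral_le_integral_abs).trans
          (integral_mono (hfin v fun z => |H z - κ.law n A τ|) (hfin v bad) fun ω => hHb ω v))
    _ ≤ ∑ _l : Fin n, ∑ _l' : Fin n, (M : ℝ) ^ n / M := by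
        have e2 : ∀ v, ∫ ω, bad (φ ω v) ∂P = ∑ l, ∑ l', ∫ ω, (if l ≠ l' ∧
            φ ω v l (A l l') = φ ω v l' (A l l') then (1 : ℝ) else 0) ∂P := fun v => by
          simp only [bad]
          rw [integral_finsetSum _ fun l _ => hfin v fun ψ =>
            ∑ l', if l ≠ l' ∧ ψ l (A l l') = ψ l' (A l l') then (1 : ℝ) else 0]
          exact sum_congr rfl fun l _ => integral_finsetSum _ fun l' _ => hfin v fun ψ =>
            if l ≠ l' ∧ ψ l (A l l') = ψ l' (A l l') then (1 : ℝ) else 0
        simp only [e2]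
        rw [sum_comm]
        refine sum_le_sum fun l _ => ?_
        rw [sum_comm]
        refine sum_le_sum fun l' _ => ?_
        rcases eq_or_ne l l' with h | h
        · simp only [h, ne_eq, not_true, false_and, if_false, integral_zero, sum_const_zero]
          positivity
        · simpa only [ne_eq, h, not_false_eq_true, true_and] using hcoll l l' h
    _ = (n : ℝ) ^ 2 / M * (M : ℝ) ^ n := by
        simp only [sum_const, card_univ, Fintype.card_fin, nsmul_eq_mul]
        ring

end Vale.Agent.P168
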