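import Vale.Agent.P168.MP.Value

/-!
P168: consistent laws of the spins of one site over a cascade.
-/

namespace Vale.Agent.P168

open Filter Finset Vale.Agent.P157.Low
open scoped Topology

/-- Consistent laws of the spins of one site given the tree of `n` replicas. -/
structure SiteKer {r : ℕ} (C : Casc r) where
  law : ∀ n, LMat r n → (Fin n → Bool) → ℝ
  nonneg : ∀ n A σ, Good A → 0 ≤ law n A σ
  total : ∀ n A, Good A → ∑ σ, law n A σ = 1
  cons : ∀ {k n : ℕ} (e : Fin k → Fin n), Function.Injective e → ∀ A, Good A →
    ∀ τ, ∑ σ, (if σ ∘ e = τ then law n A σ else 0) = law k (sub A e) τ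

/-- The law of columns of independent sites. -/
noncomputable def SiteKer.col {r : ℕ} {C : Casc r} (κ : SiteKer C) : ColLaw := fun m n σ =>
  ∑ A, C.P n A * ∏ i : Fin m, κ.law n A fun l => σ l i

end Vale.Agent.P168
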